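import Crest.Agent.X37.Half.Bridge
import Crest.Agent.X37.Outer.Defs
import Crest.Agent.X37.KS.Alg
import Crest.Agent.X37.Lev.Alg

/-!
# Row 37: the halving step

The main lemma, the balanced weights and the two-block discrepancy theorem give one halving step.
-/

set_option autoImplicit false

namespace Crest.Agent.X37.Hv

open Crest.Agent.Lib.PT Crest.Agent.X37.IO Crest.Agent.X37.PT Matrix Finset
open Crest.CombinatoricsR.Multigraph Crest.Agent.X37.Inner Crest.Agent.X37.Lev

/-! ### the mathematics of the two blocks -/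

section maths

variable {V E : Type} [Fintype V] [DecidableEq V] [Fintype E] [DecidableEq E] {src tgt : E → V}

omit [Fintype V] [DecidableEq V] [Fintype E] [DecidableEq E] in
theorem signed_sum (F : Finset E) (σ : E → Bool) (g : E → ℝ) :
    ∑ e ∈ F, (if σ e = true then 1 else -1) * g e =
      2 * ∑ e ∈ F.filter (fun e => σ e = true), g e - ∑ e ∈ F, g e := by
  rw [sum_filter, mul_sum, ← sum_sub_distrib]
  refine sum_congr rfl fun e _ => ?_
  split_ifs <;> ring

omit [Fintype V] [DecidableEq V] [Fintype E] [DecidableEq E] in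
theorem signed_sum' (F : Finset E) (σ : E → Bool) (g : E → ℝ) :
    ∑ e ∈ F, (if σ e = false then 1 else -1) * g e =
      ∑ e ∈ F, g e - 2 * ∑ e ∈ F.filter (fun e => σ e = true), g e := by
  rw [sum_filter, mul_sum, ← sum_sub_distrib]
  refine sum_congr rfl fun e _ => ?_
  cases σ e <;> simp
  ring

omit [Fintype V] [Fintype E] [DecidableEq E] in
theorem en_ind (A : Finset E) (S : Finset V) (c : ℝ) :
    en src tgt (fun _ => 1) A (ind S c) = (cutEdges src tgt A S).card := by
  rw [en, cutEdges, card_filter, Nat.cast_sum]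
  refine sum_congr rfl fun e _ => ?_
  have e1 : ind S c (src e) - ind S c (tgt e) =
      (if src e ∈ S then 1 else 0) - (if tgt e ∈ S then 1 else 0) := by simp [ind]
  rw [e1]
  by_cases h1 : src e ∈ S <;> by_cases h2 : tgt e ∈ S <;> simp [h1, h2]

omit [DecidableEq E] in
/-- the upper block: cuts are halved -/
theorem cut_le {F : Finset E} {σ : E → Bool} {D : Matrix V V ℝ} {u η : ℝ} (hu : 0 ≤ u)
    (hη0 : 0 ≤ η) (hη : η ≤ 1)
    (hD : ∀ S : Finset V, ∃ c : ℝ, qf D (ind S c) ≤ (cutEdges src tgt univ S).card)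
    (hT : ∀ z : V → ℝ, ∑ e ∈ F, (if σ e = true then 1 else -1) * (1 * (z (src e) - z (tgt e)) ^ 2) ≤
      u * (en src tgt (fun _ => 1) F z + η * qf D z)) (S : Finset V) :
    ((cutEdges src tgt (F.filter fun e => σ e = true) S).card : ℝ) ≤
      (1 + 2 * u) / 2 * (cutEdges src tgt univ S).card := by
  obtain ⟨c, hc⟩ := hD S
  have h1 := hT (ind S c)
  rw [signed_sum] at h1
  have h2 := en_ind (src := src) (tgt := tgt) F S c
  have h3 := en_ind (src := src) (tgt := tgt) (F.filter fun e => σ e = true) S c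
  rw [h2] at h1
  unfold en at h2 h3
  rw [h2, h3] at h1
  have h4 : ((cutEdges src tgt F S).card : ℝ) ≤ (cutEdges src tgt univ S).card := by
    exact_mod_cast card_le_card (filter_subset_filter _ (subset_univ F))
  have h5 : (0 : ℝ) ≤ (cutEdges src tgt univ S).card := Nat.cast_nonneg _
  have h6 : η * qf D (ind S c) ≤ (cutEdges src tgt univ S).card :=
    (mul_le_mul_of_nonneg_left hc hη0).trans (by nlinarith)
  have h7 := mul_le_mul_of_nonneg_left (add_le_add h4 h6) hu
  nlinarith

omit [Fintype V] [DecidableEq V] [Fintype E] [DecidableEq E] in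
/-- the lower block: the energy is halved -/
theorem en_ge {F : Finset E} {σ : E → Bool} {w : E → ℝ} {u : ℝ} (v : V)
    (hF : ∀ z : V → ℝ, ∑ e ∈ F, (if σ e = false then 1 else -1) *
      (w e * (z (src e) - z (tgt e)) ^ 2) ≤ u * (z v ^ 2 + en src tgt w F z)) (x : V → ℝ) :
    (1 - u) / 2 * en src tgt w F x ≤ en src tgt w (F.filter fun e => σ e = true) x := by
  have h1 := hF fun y => x y - x v
  rw [signed_sum'] at h1
  simp only [en, sub_sub_sub_cancel_right, sub_self] at h1 ⊢
  nlinarith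

end maths

/-! ### the instance -/

/-- weights restricted to the marked edges -/
def wM (m : ℕ) (F : List Bool) (w : List ℚ) : List ℚ :=
  vtab m fun e => if F.getD e false = true then vent w e else 0

/-- the table of the incidence vectors -/
def vecs (n : ℕ) (es : List (ℕ × ℕ)) : List (List ℚ) :=
  tab es.length n fun e i => inc (es.getD e (0, 0)) i

/-- unit weights -/
def ones (m : ℕ) : List ℚ := vtab m fun _ => 1

/-- the upper block -/
def blkT (n r : ℕ) (es : List (ℕ × ℕ)) (F : List Bool) (D : List (List ℚ)) : KS.Blk :=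
  (tab n n fun i j => lapF es F (ones es.length) i j -
      (if i = 0 then 1 else 0) * (if j = 0 then 1 else 0) + (r : ℚ)⁻¹ * ent D i j,
    wM es.length F (ones es.length), vecs n es)

/-- the lower block -/
def blkF (n : ℕ) (es : List (ℕ × ℕ)) (F : List Bool) (w : List ℚ) : KS.Blk :=
  (tab n n (lapF es F w), wM es.length F w, vecs n es)

/-- the discrepancy instance -/
def inst (n r R : ℕ) (es : List (ℕ × ℕ)) (F : List Bool) (D : List (List ℚ)) (w : List ℚ) :
    KS.Inp :=
  (⟨n⟩, ⟨es.length⟩, ⟨R⟩, blkT n r es F D, blkF n es F w)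

/-- conjunction of two masks -/
def both (m : ℕ) (F σ : List Bool) : List Bool :=
  (List.range m).map fun i => F.getD i false && σ.getD i false

theorem maskF_both (m : ℕ) (F σ : List Bool) :
    maskF m (both m F σ) = (maskF m F).filter fun e : Fin m => σ.getD e false = true := by
  ext i
  simp [maskF, both, List.getD_eq_getElem?_getD]

section pt

variable {α : Type} [Enc α]

@[fun_prop] theorem wM_pt {m : α → ℕ} {F : α → List Bool} {w : α → List ℚ} (hm : PT m)
    (hb : PB m) (hF : PT F) (hw : PT w) : PT fun a => wM (m a) (F a) (w a) := by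
  unfold wM; fun_prop

@[fun_prop] theorem vecs_pt {n : α → ℕ} {es : α → List (ℕ × ℕ)} (hn : PT n) (hb : PB n)
    (hes : PT es) : PT fun a => vecs (n a) (es a) := by
  unfold vecs; fun_prop

@[fun_prop] theorem ones_pt {m : α → ℕ} (hm : PT m) (hb : PB m) : PT fun a => ones (m a) := by
  unfold ones; fun_prop

@[fun_prop] theorem both_pt {m : α → ℕ} {F σ : α → List Bool} (hm : PT m) (hb : PB m)
    (hF : PT F) (hσ : PT σ) : PT fun a => both (m a) (F a) (σ a) := by
  unfold both; fun_prop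

theorem blkT_pt {n r : α → ℕ} {es : α → List (ℕ × ℕ)} {F : α → List Bool}
    {D : α → List (List ℚ)} (hn : PT n) (hb : PB n) (hr : PT r) (hes : PT es) (hF : PT F)
    (hD : PT D) : PT fun a => blkT (n a) (r a) (es a) (F a) (D a) := by
  unfold blkT; fun_prop

theorem blkF_pt {n : α → ℕ} {es : α → List (ℕ × ℕ)} {F : α → List Bool}
    {w : α → List ℚ} (hn : PT n) (hb : PB n) (hes : PT es) (hF : PT F)
    (hw : PT w) : PT fun a => blkF (n a) (es a) (F a) (w a) := by
  unfold blkF
  exact PT.pair (tab_pt hn hb hn hb (by fun_prop)) (by fun_prop)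

theorem inst_pt {n r R : α → ℕ} {es : α → List (ℕ × ℕ)} {F : α → List Bool}
    {D : α → List (List ℚ)} {w : α → List ℚ} (hn : PT n) (hb : PB n) (hr : PT r) (hR : PT R)
    (hRb : PB R) (hes : PT es) (hF : PT F) (hD : PT D) (hw : PT w) :
    PT fun a => inst (n a) (r a) (R a) (es a) (F a) (D a) (w a) := by
  unfold inst
  exact PT.pair (by fun_prop) (PT.pair (by fun_prop) (PT.pair (by fun_prop)
    (PT.pair (blkT_pt hn hb hr hes hF hD) (blkF_pt hn hb hes hF hw))))

end pt

/-! ### reading the instance -/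

section read

variable {n : ℕ} {es : List (ℕ × ℕ)}

theorem vecs_eq (h : Loopless n es) (e : Fin es.length) :
    (fun i : Fin n => ((ent (vecs n es) e i : ℚ) : ℝ)) = bv (srcF h e) (tgtF h e) := by
  funext i
  rw [vecs, ent_tab_fin, getD_eq h, cast_inc]

theorem vent_wM {m : ℕ} (F : List Bool) (w : List ℚ) (e : Fin m) :
    vent (wM m F w) e = if e ∈ maskF m F then vent w e else 0 := by
  simp [wM, maskF]

theorem vent_ones {m : ℕ} (e : Fin m) : vent (ones m) e = 1 := by simp [ones]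

theorem sum_blk (h : Loopless n es) (F : List Bool) (w : List ℚ) (c : ℕ → ℝ) (z : Fin n → ℝ) :
    ∑ e ∈ range es.length, c e * (((vent (wM es.length F w) e : ℚ) : ℝ) *
      ((fun i : Fin n => ((ent (vecs n es) e i : ℚ) : ℝ)) ⬝ᵥ z) ^ 2) =
    ∑ e ∈ maskF es.length F, c e * (((vent w e : ℚ) : ℝ) * (z (srcF h e) - z (tgtF h e)) ^ 2) := by
  rw [sum_range, ← sum_subset (subset_univ (maskF es.length F))]
  · refine sum_congr rfl fun e he => ?_
    rw [vecs_eq h, bv_dot, vent_wM, if_pos he]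
  · intro e _ he
    rw [vent_wM, if_neg he]
    simp

theorem mat_blkF (h : Loopless n es) (hn : 0 < n) (F : List Bool) (w : List ℚ) :
    PT.matR n (ent (blkF n es F w).1) =
      lap (srcF h) (tgtF h) ⟨0, hn⟩ (fun e => (vent w e : ℝ)) (maskF es.length F) := by
  ext i j
  rw [lap_eq h hn, PT.matR_apply, blkF, ent_tab_fin]

theorem mat_blkT (h : Loopless n es) (hn : 0 < n) (r : ℕ) (F : List Bool) (D : List (List ℚ)) :
    PT.matR n (ent (blkT n r es F D).1) =
      lap (srcF h) (tgtF h) ⟨0, hn⟩ (fun _ => 1) (maskF es.length F) +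
        (-1 : ℝ) • vecMulVec (Pi.single ⟨0, hn⟩ 1) (Pi.single ⟨0, hn⟩ 1) +
        (r : ℝ)⁻¹ • Inner.matR n D := by
  have h1 : (fun _ => (1 : ℝ)) = fun e : Fin es.length => ((vent (ones es.length) e : ℚ) : ℝ) := by
    funext e; rw [vent_ones]; simp
  ext i j
  rw [Matrix.add_apply, Matrix.add_apply, h1, lap_eq h hn, PT.matR_apply, blkT, ent_tab_fin]
  simp only [Matrix.smul_apply, vecMulVec_apply, Pi.single_apply, Fin.ext_iff, smul_eq_mul,
    Inner.matR, of_apply, ent]
  push_cast
  split_ifs <;> (simp; try ring)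

theorem qf_blkT (h : Loopless n es) (hn : 0 < n) (r : ℕ) (F : List Bool) (D : List (List ℚ))
    (z : Fin n → ℝ) : qf (PT.matR n (ent (blkT n r es F D).1)) z =
      en (srcF h) (tgtF h) (fun _ => 1) (maskF es.length F) z +
        (r : ℝ)⁻¹ * qf (Inner.matR n D) z := by
  rw [mat_blkT h hn, qf_add, qf_add, qf_lap, qf_smul, qf_smul, qf_vecMulVec]
  simp

theorem posDef_blkT (h : Loopless n es) (hn : 0 < n) {r : ℕ} (hr : 0 < r) (F : List Bool)
    {D : List (List ℚ)} (hD : (Inner.matR n D).PosDef) :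
    (PT.matR n (ent (blkT n r es F D).1)).PosDef := by
  refine posDef_of_qf ?_ fun x hx => ?_
  · rw [mat_blkT h hn, transpose_add, transpose_add, lap_symm, transpose_smul, transpose_smul,
      symm_of_posDef hD, transpose_vecMulVec]
  · rw [qf_blkT h hn]
    have h1 := en_nonneg (src := srcF h) (tgt := tgtF h) (w := fun _ => 1)
      (A := maskF es.length F) (fun _ _ => zero_le_one) x
    have h2 := qf_pos hD hx
    have h3 : (0 : ℝ) < r := by exact_mod_cast hr
    positivity

/-- the instance is valid -/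
theorem valid_inst (h : Loopless n es) (hn : 0 < n) {r R : ℕ} (hr : 0 < r) (hR : 1 ≤ R)
    {F : List Bool} {D : List (List ℚ)} {w : List ℚ} {k rho lam : ℝ} (hk : 0 < k)
    (hpc : PC (srcF h) (tgtF h) k (maskF es.length F))
    (hD : Good (srcF h) (tgtF h) (maskF es.length F) rho (Inner.matR n D))
    (hw : ∀ e : Fin es.length, (0 : ℝ) < vent w e) (hlam : 0 ≤ lam)
    (hl : LevOk (srcF h) (tgtF h) (fun e => (vent w e : ℝ)) (maskF es.length F) lam)
    (h1 : r * rho * (2 ^ 18 * (R : ℝ) ^ 2) ≤ 1) (h2 : lam * (2 ^ 18 * (R : ℝ) ^ 2) ≤ 1) :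
    KS.Valid (inst n r R es F D w) := by
  have hT := posDef_blkT h hn hr F hD.1
  have hF : (PT.matR n (ent (blkF n es F w).1)).PosDef := by
    rw [mat_blkF h hn]
    exact lap_posDef (pcl_iff.2 hpc) hk fun e _ => hw e
  have hr' : (0 : ℝ) < r := by exact_mod_cast hr
  have hRR : (0 : ℝ) ≤ 2 ^ 18 * (R : ℝ) ^ 2 := by positivity
  refine ⟨hR, fun s => ?_, fun s e he => ?_, fun s (z : Fin n → ℝ) => ?_, fun s e he => ?_⟩
  · cases s
    · exact hF
    · exact hT
  · cases s
    · change 0 ≤ vent (wM es.length F w) (⟨e, he⟩ : Fin es.length)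
      rw [vent_wM]
      split_ifs
      · exact_mod_cast (hw ⟨e, he⟩).le
      · exact le_rfl
    · change 0 ≤ vent (wM es.length F (ones es.length)) (⟨e, he⟩ : Fin es.length)
      rw [vent_wM, vent_ones]
      split_ifs <;> norm_num
  · cases s
    · have h3 := sum_blk h F w (fun _ => 1) z
      simp only [one_mul] at h3
      refine h3.le.trans ?_
      change _ ≤ qf (PT.matR n (ent (blkF n es F w).1)) z
      rw [mat_blkF h hn, qf_lap]
      exact le_add_of_nonneg_left (sq_nonneg _)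
    · have h3 := sum_blk h F (ones es.length) (fun _ => 1) z
      simp only [one_mul, vent_ones, Rat.cast_one] at h3
      refine h3.le.trans ?_
      change _ ≤ qf (PT.matR n (ent (blkT n r es F D).1)) z
      rw [qf_blkT h hn]
      have h4 := qf_nonneg hD.1 z
      simp only [en, one_mul]
      exact le_add_of_nonneg_right (by positivity)
  · cases s
    · change ((vent (wM es.length F w) (⟨e, he⟩ : Fin es.length) : ℚ) : ℝ) *
        ip (PT.matR n (ent (blkF n es F w).1))
          (fun i : Fin n => ((ent (vecs n es) (⟨e, he⟩ : Fin es.length) i : ℚ) : ℝ))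
          (fun i : Fin n => ((ent (vecs n es) (⟨e, he⟩ : Fin es.length) i : ℚ) : ℝ)) *
        (2 ^ 18 * (R : ℝ) ^ 2) ≤ 1
      rw [vecs_eq h, vent_wM]
      split_ifs with hm
      · have hwe := hw ⟨e, he⟩
        have h3 := ip_le_of hF (bv (srcF h ⟨e, he⟩) (tgtF h ⟨e, he⟩))
          (c := lam / vent w (⟨e, he⟩ : Fin es.length)) (by positivity) fun x => by
            rw [bv_dot, mat_blkF h hn, qf_lap, div_mul_eq_mul_div, le_div_iff₀ hwe]
            have h4 := hl _ hm x
            have h5 := mul_nonneg hlam (sq_nonneg (x ⟨0, hn⟩))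
            nlinarith
        rw [le_div_iff₀ hwe, mul_comm] at h3
        exact (mul_le_mul_of_nonneg_right h3 hRR).trans h2
      · simp
    · change ((vent (wM es.length F (ones es.length)) (⟨e, he⟩ : Fin es.length) : ℚ) : ℝ) *
        ip (PT.matR n (ent (blkT n r es F D).1))
          (fun i : Fin n => ((ent (vecs n es) (⟨e, he⟩ : Fin es.length) i : ℚ) : ℝ))
          (fun i : Fin n => ((ent (vecs n es) (⟨e, he⟩ : Fin es.length) i : ℚ) : ℝ)) *
        (2 ^ 18 * (R : ℝ) ^ 2) ≤ 1
      rw [vecs_eq h, vent_wM, vent_ones]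
      split_ifs with hm
      · have h3 := ip_mono hD.1 hT (inv_pos.2 hr') (fun x => by
          rw [qf_blkT h hn]
          exact le_add_of_nonneg_left (en_nonneg (fun _ _ => zero_le_one) x))
          (bv (srcF h ⟨e, he⟩) (tgtF h ⟨e, he⟩))
        have h4 := h3.trans (hD.2.2 _ hm)
        rw [inv_mul_le_iff₀ hr'] at h4
        rw [Rat.cast_one, one_mul]
        exact (mul_le_mul_of_nonneg_right h4 hRR).trans h1
      · simp

/-- reading the signs -/
theorem of_spec (h : Loopless n es) (hn : 0 < n) {r R : ℕ} (hr : 0 < r) {F : List Bool}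
    {D : List (List ℚ)} {w : List ℚ} {σ : List Bool} {k rho lam : ℝ} (hk : 0 < k)
    (hpc : PC (srcF h) (tgtF h) k (maskF es.length F))
    (hD : Good (srcF h) (tgtF h) (maskF es.length F) rho (Inner.matR n D))
    (hw : ∀ e : Fin es.length, (0 : ℝ) < vent w e) (hlam : 0 < lam)
    (hl : LevOk (srcF h) (tgtF h) (fun e => (vent w e : ℝ)) (maskF es.length F) lam)
    (hu : 2 / (R : ℝ) < 1) (hs : KS.Spec (inst n r R es F D w) σ) :
    PC (srcF h) (tgtF h) ((1 - 2 / (R : ℝ)) / 2 / lam) (maskF es.length (both es.length F σ)) ∧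
    ∀ S : Finset (Fin n),
      ((cutEdges (srcF h) (tgtF h) (maskF es.length (both es.length F σ)) S).card : ℝ) ≤
        (1 + 2 * (2 / (R : ℝ))) / 2 * (cutEdges (srcF h) (tgtF h) univ S).card := by
  rw [maskF_both]
  have hr' : (1 : ℝ) ≤ r := by exact_mod_cast hr
  refine ⟨pc_of_energy hpc hk (fun e _ => hw e) hlam (by linarith) hl (filter_subset _ _)
    (en_ge (σ := fun e : Fin es.length => σ.getD e false) ⟨0, hn⟩ fun z => ?_), ?_⟩
  · have h1 := hs.2 false z
    have h2 := sum_blk h F w (fun e => if σ.getD e false = false then 1 else -1) z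
    refine (h2.symm.le.trans h1).trans (le_of_eq ?_)
    change 2 / (R : ℝ) * qf (PT.matR n (ent (blkF n es F w).1)) z = _
    rw [mat_blkF h hn, qf_lap]
  · refine cut_le (σ := fun e : Fin es.length => σ.getD e false) (η := (r : ℝ)⁻¹) (by positivity)
      (by positivity) (inv_le_one_of_one_le₀ hr') hD.2.1 fun z => ?_
    have h1 := hs.2 true z
    have h2 := sum_blk h F (ones es.length) (fun e => if σ.getD e false = true then 1 else -1) z
    simp only [vent_ones, Rat.cast_one] at h2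
    refine (h2.symm.le.trans h1).trans (le_of_eq ?_)
    change 2 / (R : ℝ) * qf (PT.matR n (ent (blkT n r es F D).1)) z = _
    rw [qf_blkT h hn]

end read

/-! ### the halving step -/

theorem num_pc {c r R t k q : ℝ} (hc : 1 ≤ c) (hr0 : 0 < r) (hR : 2 ≤ R) (ht : q * r ≤ t)
    (hkt : k + q = t) (hk0 : 0 < k) (hu : 2 / R ≤ 4 * (512 * c) / r) (ht0 : 0 ≤ t) :
    (1 - (8 * (512 * c) + 5) / r) * t / 2 ≤ (1 - 2 / R) / 2 / ((1 + 4 / r) / k) := by
  have hR0 : 0 < R := by linarith
  have hkt' : (1 - 1 / r) * t ≤ k := by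
    have : q ≤ 1 / r * t := by
      rw [div_mul_eq_mul_div, one_mul, le_div_iff₀ hr0]; exact ht
    linarith
  have hx0 : 0 < 1 / r := by positivity
  have hu1 : 2 / R ≤ 1 := by rw [div_le_one hR0]; linarith
  have hu0 : 0 ≤ 2 / R := by positivity
  rw [div_div_eq_mul_div, le_div_iff₀ (by positivity)]
  have e1 : (8 * (512 * c) + 5) / r = (8 * (512 * c) + 5) * (1 / r) := by ring
  have e2 : 4 / r = 4 * (1 / r) := by ring
  have e3 : 4 * (512 * c) / r = 4 * (512 * c) * (1 / r) := by ring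
  rw [e3] at hu
  rw [e1, e2]
  generalize 1 / r = x at *
  generalize 2 / R = u at *
  have hc0 : 0 ≤ c := by linarith
  have a1 : 0 ≤ c * x := by positivity
  have a2 : 0 ≤ c * x * x := by positivity
  have a3 : 0 ≤ u * x := by positivity
  have a4 : 0 ≤ x * x := by positivity
  have h5 : (1 - (8 * (512 * c) + 5) * x) * (1 + 4 * x) ≤ (1 - u) * (1 - x) := by linarith
  have h6 := mul_le_mul_of_nonneg_right h5 ht0
  have h7 := mul_le_mul_of_nonneg_left hkt' (sub_nonneg.2 hu1)
  linarith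

/-- **One halving step.** -/
theorem half_of (hM : Outer.MainStatement) (hK : KS.KSStatement) : Half.HalfStatement := by
  obtain ⟨C, main, hC, hmain, hM⟩ := hM
  obtain ⟨ks, hks, hK⟩ := hK
  obtain ⟨c, hc⟩ : ∃ c : ℕ, C + 1 ≤ c := ⟨⌈C + 1⌉₊, Nat.le_ceil _⟩
  let kk : Un × Un × ℕ × List (ℕ × ℕ) → ℕ := fun a => a.2.2.1 - a.2.1.n ^ 11
  let out : Un × Un × ℕ × List (ℕ × ℕ) → List Bool × List (List ℚ) := fun a =>
    main (a.1, kk a, a.2.1.n, a.2.2.2)
  let wt : Un × Un × ℕ × List (ℕ × ℕ) → List ℚ := fun a =>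
    levWM a.1.n a.2.1.n ((1 + 4 / (a.2.1.n : ℚ)) / (kk a : ℚ)) a.2.2.2 (out a).1
  let ins : Un × Un × ℕ × List (ℕ × ℕ) → KS.Inp := fun a =>
    inst a.1.n a.2.1.n (a.2.1.n / (512 * c)) a.2.2.2 (out a).1 (out a).2 (wt a)
  have hkk : PT kk := by simp only [kk]; fun_prop
  have hout : PT out := hmain.comp (by fun_prop)
  have hwt : PT wt := levWM_pt (by fun_prop) (by fun_prop) (by fun_prop) (by fun_prop)
    (by fun_prop) (by fun_prop) (by fun_prop)
  have hins : PT ins := inst_pt (by fun_prop) (by fun_prop) (by fun_prop) (by fun_prop)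
    (PB.mono (g := fun a : Un × Un × ℕ × List (ℕ × ℕ) => a.2.1.n) (by fun_prop)
      fun a => Nat.div_le_self _ _) (by fun_prop) (by fun_prop) (by fun_prop) hwt
  have hsig : PT fun a => ks (ins a) := hks.comp hins
  refine ⟨8 * (512 * c) + 5, 8 * (512 * c),
    fun a => Half.sel a.2.2.2 (both a.2.2.2.length (out a).1 (ks (ins a))), by fun_prop, ?_⟩
  intro n r t es h hn hr ht1 ht2 hpc
  have hc1 : (1 : ℝ) ≤ c := by linarith
  have hc1' : 1 ≤ c := by exact_mod_cast hc1
  have hr2 : 4096 ≤ r := by omega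
  have hr' : (4096 : ℝ) ≤ r := by exact_mod_cast hr2
  have hr0 : (0 : ℝ) < r := by linarith
  have h11 : 2 * r ^ 11 ≤ r ^ 12 := by rw [pow_succ r 11]; nlinarith [Nat.zero_le (r ^ 11)]
  have h11' : 2 * r ^ 2 ≤ r ^ 11 := by
    have : r ^ 3 ≤ r ^ 11 := Nat.pow_le_pow_right (by omega) (by omega)
    rw [pow_succ r 2] at this
    nlinarith [Nat.zero_le (r ^ 2)]
  have hr1 : 1 ≤ r ^ 2 := Nat.one_le_pow _ _ (by omega)
  set k := t - r ^ 11 with hk
  have hkt : (k : ℝ) + (r : ℝ) ^ 11 = t := by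
    have : k + r ^ 11 = t := by omega
    exact_mod_cast this
  have hk2 : 2 * (r : ℝ) ^ 2 ≤ k := by
    have : 2 * r ^ 2 ≤ k := by omega
    exact_mod_cast this
  have hk0 : (0 : ℝ) < k := by nlinarith
  set R := r / (512 * c) with hR
  have hR8 : 8 ≤ R := (Nat.le_div_iff_mul_le (by omega)).2 hr
  have hRr : (R : ℝ) * (512 * c) ≤ r := by exact_mod_cast Nat.div_mul_le_self r (512 * c)
  have hRr' : (r : ℝ) ≤ 2 * (R * (512 * c)) := by
    have h1 : r < R * (512 * c) + 512 * c := Nat.lt_div_mul_add (by omega)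
    have h2 : 512 * c ≤ R * (512 * c) := Nat.le_mul_of_pos_left _ (by omega)
    have : r ≤ 2 * (R * (512 * c)) := by omega
    exact_mod_cast this
  have hR8' : (8 : ℝ) ≤ R := by exact_mod_cast hR8
  have hR0 : (0 : ℝ) < R := by linarith
  have hsq : 2 ^ 18 * (R : ℝ) ^ 2 * (c : ℝ) ^ 2 ≤ (r : ℝ) ^ 2 := by
    have := pow_le_pow_left₀ (by positivity) hRr 2
    nlinarith
  obtain ⟨hF, hD⟩ := hM n k r es h (by omega) (by omega) (by omega)
    (by rw [hkt]; exact (Half.pcl_iff h t).1 hpc)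
  have hlamc : ((((1 + 4 / (r : ℚ)) / (k : ℚ) : ℚ)) : ℝ) = (1 + 4 / (r : ℝ)) / k := by push_cast; rfl
  obtain ⟨hw, hl⟩ := levWM_spec h (a := r) (lam := (1 + 4 / (r : ℚ)) / (k : ℚ))
    (main (⟨n⟩, k, r, es)).1 hk0 (by omega) (by rw [hlamc, div_mul_cancel₀ _ hk0.ne']) hF
  rw [hlamc] at hl
  have h4r : 4 / (r : ℝ) ≤ 1 := by rw [div_le_one hr0]; linarith
  have hlam0 : 0 < (1 + 4 / (r : ℝ)) / k := by positivity
  have hn0 : 0 < n := by omega
  have hr00 : 0 < r := by omega
  have hv : KS.Valid (inst n r R es (main (⟨n⟩, k, r, es)).1 (main (⟨n⟩, k, r, es)).2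
      (levWM n r ((1 + 4 / (r : ℚ)) / (k : ℚ)) es (main (⟨n⟩, k, r, es)).1)) := by
    refine valid_inst h hn0 hr00 (by omega) hk0 hF hD (fun e => (hw e).1) hlam0.le hl ?_ ?_
    · have e : r * (C / (r : ℝ) ^ 3) * (2 ^ 18 * (R : ℝ) ^ 2) =
          C * (2 ^ 18 * (R : ℝ) ^ 2) / (r : ℝ) ^ 2 := by field_simp
      rw [e, div_le_one (by positivity)]
      have : C ≤ (c : ℝ) ^ 2 := by nlinarith
      have h2 : (0 : ℝ) ≤ 2 ^ 18 * (R : ℝ) ^ 2 := by positivity
      nlinarith
    · rw [div_mul_eq_mul_div, div_le_one hk0]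
      have h2 : (0 : ℝ) ≤ 2 ^ 18 * (R : ℝ) ^ 2 := by positivity
      have h3 : (1 : ℝ) ≤ (c : ℝ) ^ 2 := by nlinarith
      nlinarith
  have hu : 2 / (R : ℝ) ≤ 4 * (512 * c) / r := by
    rw [div_le_div_iff₀ hR0 hr0]; linarith
  obtain ⟨h1, h2⟩ := of_spec h hn0 hr00 hk0 hF hD (fun e => (hw e).1) hlam0 hl
    (by rw [div_lt_one hR0]; linarith) (hK _ hv)
  refine ⟨Half.sel_sublist _ _, ?_, forall_proper.2 fun S _ _ => ?_⟩
  · refine ((Half.pcl_sel h _ _).2 h1).of_le (by omega) ?_
    push_cast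
    exact num_pc hc1 hr0 (by linarith) (by rw [← pow_succ]; exact_mod_cast ht1) hkt hk0 hu
      (Nat.cast_nonneg _)
  · rw [Half.cutL_sel h, cutL_vals h]
    refine (h2 S).trans (mul_le_mul_of_nonneg_right ?_ (Nat.cast_nonneg _))
    push_cast
    have e1 : (8 * (512 * (c : ℝ)) + 5) / r = 2 * (4 * (512 * c) / r) + 5 / r := by ring
    have : 0 ≤ 5 / (r : ℝ) := by positivity
    rw [e1]
    linarith

end Crest.Agent.X37.Hv
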